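import Vale.Agent.P137.Stmt

namespace Vale.Agent.P137

open MeasureTheory Metric
open scoped ENNReal

variable {E : Type*} [NormedAddCommGroup E] [InnerProductSpace ℝ E] [FiniteDimensional ℝ E]
  [MeasurableSpace E] [BorelSpace E]

/-- The centered Hardy-Littlewood maximal function over open Euclidean balls. -/
noncomputable def Mc (f : E → ℝ) (x : E) : ℝ≥0∞ :=
  ⨆ (r : ℝ) (_ : 0 < r), (∫⁻ y in ball x r, ‖f y‖ₑ) / volume (ball x r)

end Vale.Agent.P137
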